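import Vale.Agent.P004F.Pr.Defs
import Vale.Agent.P004F.Qx.St
import Vale.Agent.P004T.St2
import Vale.Agent.P004M.TE.Tate
import Vale.Agent.P004F.Pat.Ul

/-! # P004F (FRAME): the data, the towers, the anchor -/

set_option linter.all false

open UpperHalfPlane NumberField Matrix Filter PowerSeries
open scoped Classical NumberTheorySymbols

noncomputable section

namespace Vale.Agent.P004F

open Vale.Agent.P022 Vale.Agent.P004K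
open Vale.Agent.P022K.G2 (In)
open Vale.Agent.P027M.S (Inert)
open Vale.Agent.P022D.W (dec)
open Vale.Agent.P022E.GW (Ov Fb Gn)
open P004Z.EF (Par)
open P004M.TE (Pt ga)
open P004S (nu)
open P004T (ds PosD)
open Pr (ac)
open Qx (zf Fk dep Ch)

abbrev La : Type := Pat.La

abbrev M2 (R : Type) : Type := Matrix (Fin 2) (Fin 2) R

/-- `Λ / (2 ^ j, T ^ j)` -/
abbrev Rj (j : ℕ) : Type := Pat.Rk j

/-- `𝔽₂[T] / T ^ J` -/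
abbrev Rb (J : ℕ) : Type := PowerSeries (ZMod 2) ⧸ Ideal.span {(X : PowerSeries (ZMod 2)) ^ J}

/-- constants -/
def cj (j : ℕ) : ℤ_[2] →+* Rj j := (Ideal.Quotient.mk _).comp C

/-- constants modulo two -/
def cb (J : ℕ) : ℤ_[2] →+* Rb J := ((Ideal.Quotient.mk _).comp C).comp PadicInt.toZMod

/-- the sign of `g` on `√d` -/
def sd (d : ℤ) (g : GQ) : ℤ := if nu d g = 0 then 1 else -1

theorem hq {A B : ℤ} (h : 4 * A ^ 3 + 27 * B ^ 2 ≠ 0) : 4 * (A : ℚ) ^ 3 + 27 * (B : ℚ) ^ 2 ≠ 0 := by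
  exact_mod_cast h

/-- the curve, the twist, the bad primes, the places -/
structure Crv where
  N : ℕ
  G : ℍ → ℂ
  a : ℕ → ℤ
  A : ℤ
  B : ℤ
  w : ℕ
  Λ : Submodule ℤ ℂ
  F : ℍ → ℂ
  x : P022.H218.L3.Mer
  y : P022.H218.L3.Mer
  rn : P004N.RN N G a
  par : Par N a A B w Λ F x y
  δ : ℕ
  ok : P004Z.Ok N δ
  S : List ℕ
  P : ℕ → Ideal (𝓞 Qb)
  τ : ℕ → GQ
  nd : S.Nodup
  two : 2 ∈ S
  ov : ∀ p ∈ S, Ov p (P p)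
  gn : ∀ p ∈ S, p ≠ 2 → Gn p (P p) (τ p)
  bad : ∀ l : ℕ, l.Prime → l ∉ S → ¬ l ∣ N * δ ∧ ¬ (l : ℤ) ∣ 4 * A ^ 3 + 27 * B ^ 2 ∧
    ∀ g, IsFrob l g → (P004M.TE.mt (hq par.disc) g).trace = a l
  aux : ∃ s ∈ S, s ≠ 2 ∧ ∀ g ∈ dec (P s), (P004M.TE.mt (hq par.disc) g).map PadicInt.toZMod = 1
  ur : ∀ l : ℕ, l ∣ δ → ∀ Q, Ov l Q → ∀ g, Inert Q g → P004M.TE.mt (hq par.disc) g = 1

namespace Crv

variable (e : Crv)

/-- the representation -/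
def r : GQ →* M2 ℤ_[2] := P004M.TE.mt (hq e.par.disc)

/-- the same with values in `GL₂(ℚ₂)` -/
def rp : P004S.Rp := P004M.TE.rep (hq e.par.disc)

/-- the twist -/
def rd (g : GQ) : M2 ℤ_[2] := sd (ds e.δ) g • e.r g

/-- the primes at which the Euler system is depleted -/
def S' : List ℕ := e.S.filter fun p => ¬ p ∣ e.δ

/-- inertia at `P p` fixes the vector `v ≠ 0` -/
def Iv (p : ℕ) (v : Fin 2 → ℤ_[2]) : Prop := v ≠ 0 ∧ ∀ g, Inert (e.P p) g → e.r g *ᵥ v = v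

/-- the odd strict primes -/
def σ : Finset ℕ := e.S'.toFinset.filter fun p => p ≠ 2 ∧ ∃ v, e.Iv p v

/-- admissible fields -/
structure Adm (δ' : ℕ) : Prop where
  sq : Squarefree δ'
  m8 : δ' % 8 = 7
  spl : ∀ p ∈ e.S, p ≠ 2 → J(-(δ' : ℤ) | p) = 1

end Crv

/-- `Y` is the Heegner point of conductor `c` -/
def Hg (e : Crv) {K : Type} [Field K] (j : K →+* Qb) (I : Ideal (𝓞 K)) (c : ℕ) (Y : Pt e.A e.B) :
    Prop :=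
  ∀ g σ τ τ', Ex σ g → Hp (JJ j) e.N I c τ → Cj0 σ e.N τ τ' → Un e.Λ (e.F τ') (ga g Y)

/-- the field, the Euler system -/
structure Fld (e : Crv) where
  δ' : ℕ
  β : ℤ
  adm : e.Adm δ'
  dat : P004Z.Dat e.N e.δ δ' β
  K : Type
  [fK : Field K]
  [nK : NumberField K]
  j : K →+* Qb
  iq : Iq K
  upm : Upm K
  θ : 𝓞 K
  η : 𝓞 K
  I : Ideal (𝓞 K)
  I' : Ideal (𝓞 K)
  Q : ℕ → Ideal (𝓞 K)
  φ : ℕ → GQ
  th : θ ^ 2 = -(δ' : 𝓞 K)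
  im : 0 < (JJ j θ).im
  mem : η ∈ I
  eta : 2 * η = θ - β
  ch : Ch j e.N I I' e.S e.P Q φ
  le : ∀ p ∈ e.S, dec (e.P p) ≤ GK j
  c : GQ
  cc : IsConj c
  Y : ℕ → Pt e.A e.B
  M : ℕ
  M0 : 0 < M
  hg : ∀ c, 0 < c → c.Coprime e.N → Hg e j I c (Y c)
  fx : ∀ c, 0 < c → c.Coprime e.N → ∀ g ∈ Hc j c, ga g (Y c) = Y c
  ine : ∀ c l n t, 0 < c → c.Coprime e.N → l.Prime → ¬ l ∣ c * e.N → Gen j c l n t →
    (Ideal.span {(l : 𝓞 K)}).IsPrime →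
    ∑ i ∈ Finset.range n, ga (t ^ i) (Y (c * l)) = e.a l • Y c ∧
    (¬ l ∣ M → ∀ P : Ideal (𝓞 Qb), P.IsPrime → (l : 𝓞 Qb) ∈ P → ∀ φ : GQ,
      (∀ x : 𝓞 Qb, φ • x - x ^ l ∈ P) → K1 P (Y (c * l) - ga φ (Y c)))
  spl : ∀ c l n t, 0 < c → c.Coprime e.N → l.Prime → ¬ l ∣ c * e.N → Gen j c l n t →
    ∀ (L L' : Ideal (𝓞 K)) g g', L ⊔ L' = ⊤ → L ≠ ⊤ → L' ≠ ⊤ →
    L * L' = Ideal.span {(l : 𝓞 K)} → Ar j c L g → Ar j c L' g' →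
    ∑ i ∈ Finset.range n, ga (t ^ i) (Y (c * l)) = e.a l • Y c - ga g (Y c) - ga g' (Y c)
  qx : ∀ c, 0 < c → c.Coprime (e.N * e.S'.prod) → ∀ g ∈ GK j, ∀ p ∈ e.S',
    Fk (e.P p) (e.S'.prod ^ 2) (ga g (dep e.N e.w e.a e.S' φ (Y c)))

attribute [instance] Fld.fK Fld.nK

/-- locally constant cocycles of `Γ` (extended by zero), unramified outside `T` -/
structure Cc {R M : Type} [CommRing R] [AddCommGroup M] [Module R M] (Γ : Subgroup GQ)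
    (T : Finset ℕ) (a : GQ → M2 R) (x : GQ → Fin 2 → M) : Prop where
  coc : ∀ g ∈ Γ, ∀ h ∈ Γ, x (g * h) = x g + ac (a g) (x h)
  out : ∀ g ∉ Γ, x g = 0
  lc : ∃ W : Subgroup GQ, IsOpen (W : Set GQ) ∧ ∀ w ∈ W, x w = 0
  unr : ∀ g ∈ In T, x g = 0

namespace Fld

variable {e : Crv} (b : Fld e)

abbrev Γ : Subgroup GQ := GK b.j

/-- a system of representatives -/
def Tv (c : ℕ) (T : Finset GQ) : Prop :=
  (∀ g ∈ T, g ∈ b.Γ) ∧ ∀ g ∈ b.Γ, ∃! h, h ∈ T ∧ g⁻¹ * h ∈ Hc b.j c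

/-- an additive character modulo `2 ^ n` of conductor `c` -/
structure Ad (n c : ℕ) (χ : GQ → ℕ) : Prop where
  add : ∀ g ∈ b.Γ, ∀ h ∈ b.Γ, χ (g * h) ≡ χ g + χ h [MOD 2 ^ n]
  ker : ∀ g ∈ Hc b.j c, 2 ^ n ∣ χ g

/-- good auxiliary primes: `q ≡ ± 1` modulo `2 ^ n`, `det (1 - F²)` has bounded valuation -/
structure Gp (m n q : ℕ) : Prop where
  out : q ∉ e.S
  cop : ¬ q ∣ b.δ'
  typ : ∃ k, Typ b.K q k ∧ 2 ^ n ∣ k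
  gq : ¬ (2 : ℤ) ^ m ∣ ((q : ℤ) + 1) ^ 2 - e.a q ^ 2

/-- one level of a tower -/
structure Tw (m n c : ℕ) (χ : GQ → ℕ) : Prop extends b.Ad n c χ where
  sq : Squarefree c
  one : 1 < c
  crd : c.primeFactors.card ≤ m
  gp : ∀ q ∈ c.primeFactors, b.Gp m n q
  ram : ∀ q ∈ c.primeFactors, ∀ P, Ov q P → ∃ g, Inert P g ∧ ¬ 2 ^ m ∣ χ g ∧
    ∀ h ∈ b.Γ ⊓ dec P, ∃ k, χ h ≡ k * χ g [MOD 2 ^ n]

/-- the bad primes -/
def T (_ : Fld e) (c : ℕ) : Finset ℕ := e.S.toFinset ∪ c.primeFactors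

/-- the residual action -/
def ab (_ : Fld e) (J : ℕ) (χ : GQ → ℕ) (g : GQ) : M2 (Rb J) :=
  (Ideal.Quotient.mk _ (1 + X) : Rb J) ^ χ g • (e.r g).map (cb J)

/-- **the algebraic side of the anchor** -/
def Z0 (J c : ℕ) (χ : GQ → ℕ) : Set (GQ → Fin 2 → Rb J) :=
  {x | Cc b.Γ (b.T c) (b.ab J χ) x ∧ ∀ g ∈ dec (e.P 2), x g = 0}

/-- **the analytic side**: the order in `T` of `∑ (1 + T) ^ χ g • g h` is at most `l` -/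
def An (L : List ℕ) (c : ℕ) (χ : GQ → ℕ) (l : ℕ) : Prop := ∀ T, b.Tv c T → ∃ i ≤ l,
  ¬ Zp (e.P 2) (∑ g ∈ T, ((χ g).choose i : Qb) *
    (zf (ga g (dep e.N e.w e.a L b.φ (b.Y c))) / (L.prod ^ 2 : ℕ)))

/-- the anchor for one field -/
def Anc : Prop := ∃ (m B : ℕ) (c : ℕ → ℕ) (χ : ℕ → GQ → ℕ),
  (∀ᶠ n in atTop, b.Tw m n (c n) (χ n)) ∧
  (∀ J, ∀ᶠ n in atTop, Nat.card (b.Z0 J (c n) (χ n)) ≤ 2 ^ B) ∧
  ∃ J, ∀ᶠ n in atTop, ∃ l, 2 ^ (2 * l) ≤ Nat.card (b.Z0 J (c n) (χ n)) ∧ b.An e.S (c n) (χ n) l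

/-- the Heegner point of the twist is torsion -/
def Tor : Prop := ∀ T, b.Tv e.δ T → IsOfFinAddOrder (∑ g ∈ T, sd (ds e.δ) g • ga g (b.Y e.δ))

end Fld

/-- **the anchor** (`S₀` = auxiliary primes of your choice) -/
def ANCHOR (C : (ℕ → ℤ) → Prop) : Prop := ∀ A B : ℤ, ∃ S₀ : Finset ℕ, (∀ l ∈ S₀, l.Prime) ∧
  ∀ e : Crv, e.A = A → e.B = B → (∀ l ∈ S₀, l ∈ e.S) → C e.a →
    ∃ E : Set ℕ, PosD E ∧ ∀ δ' ∈ E, e.Adm δ' ∧ ∀ b : Fld e, b.δ' = δ' → b.Anc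

theorem ANCHOR.or {C C' : (ℕ → ℤ) → Prop} (h : ANCHOR C) (h' : ANCHOR C') :
    ANCHOR fun a => C a ∨ C' a := fun A B => by
  obtain ⟨S, h1, h2⟩ := h A B
  obtain ⟨S', k1, k2⟩ := h' A B
  exact ⟨S ∪ S', fun l hl => (Finset.mem_union.1 hl).elim (h1 l) (k1 l), fun e a b c k =>
    k.elim (h2 e a b fun l hl => c l (Finset.mem_union_left _ hl))
      (k2 e a b fun l hl => c l (Finset.mem_union_right _ hl))⟩

end Vale.Agent.P004F
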