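import Vale.Agent.P004F.Pat.Ul

/-! # P004F (FRAME): the patched system (pure algebra) and the row `KG` -/

set_option linter.all false

open Matrix PowerSeries Submodule Set

noncomputable section

namespace Vale.Agent.P004F

open Pat (La)

/-- the index set of the generators -/
abbrev Ix (r : ℕ) (σ ι : Type) : Type := (Fin r ⊕ σ × Fin 2) ⊕ Option (ι × Fin 2)

/-- a stage: the module is `(Ix → R) ⧸ Rl`; elements are rows, points are columns -/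
structure Pk (R G σ : Type) where
  ι : Type
  [fι : Fintype ι]
  [dι : DecidableEq ι]
  r : ℕ
  Q : Matrix (Fin r) (Ix r σ ι) R
  l : σ → Matrix (Fin 2 ⊕ Fin 2) (Ix r σ ι) R
  u : G → Matrix (Fin 2) (Ix r σ ι) R
  t : Ix r σ ι → R
  m : σ → Matrix (Fin 2) (Ix r σ ι) R
  f : ι × Fin 2 → Ix r σ ι → R
  s : ι × Fin 2 → Ix r σ ι → R
  κ : Finset ι → Ix r σ ι → R

attribute [instance] Pk.fι Pk.dι

/-- the data which do not depend on the stage -/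
structure Gl (R G σ : Type) [CommRing R] [Group G] where
  ρ : G →* Matrix (Fin 2) (Fin 2) R
  H : Subgroup G
  Dv : Set G
  e : G → Fin 2 → R
  D : σ → Set G
  N : σ → Matrix (Fin 2) (Fin 2 ⊕ Fin 2) R
  bv : R
  c : ℕ

namespace Pk

variable {R G σ : Type} [CommRing R] [Group G] [Fintype σ] [DecidableEq σ] (γ : Gl R G σ)
  (p : Pk R G σ)

abbrev I : Type := Ix p.r σ p.ι

/-- the relations -/
def Rm : Matrix (Fin p.r ⊕ σ × Fin 2) p.I R :=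
  .of (Sum.elim p.Q fun x => (γ.N x.1 * p.l x.1) x.2)

/-- the span of the relations -/
def Rl : Submodule R (p.I → R) := span R (range (p.Rm γ))

/-- the square matrix with the rows `Rm`, `t`, `s` -/
def Mx : Matrix p.I p.I R := .of (Sum.elim (p.Rm γ) fun o => o.elim p.t p.s)

/-- the values of the universal cocycle on `Z` -/
def Us (Z : Set G) : Submodule R (p.I → R) := span R {v | ∃ g ∈ Z, ∃ i, v = p.u g i} ⊔ p.Rl γ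

structure Ok : Prop where
  coc : ∀ g h i, (p.u (g * h) - p.u g - γ.ρ g * p.u h) i ∈ p.Rl γ
  gen : p.Us γ univ ⊔ span R (insert p.t {v | ∃ x i, v = p.m x i}) = ⊤
  lu : ∀ x i, p.l x i ∈ p.Us γ univ
  sv : ∀ g ∈ γ.Dv, ∀ i, p.u g i - γ.e g i • p.t ∈ p.Rl γ
  sp : ∀ x, ∀ g ∈ γ.D x, ∀ i, p.u g i - (γ.ρ g - 1) i ᵥ* p.m x ∈ p.Rl γ
  fH : ∀ j, p.f j ∈ p.Us γ γ.H
  sH : ∀ j, p.s j ∈ p.Us γ γ.H
  kr : ∀ n, p.Rm γ *ᵥ p.κ n = 0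
  ks : ∀ n l i, l ∉ n → p.s (l, i) ⬝ᵥ p.κ n = 0
  kf : ∀ n l i, l ∈ n → p.f (l, i) ⬝ᵥ p.κ n = 0
  r1 : ∀ n l, l ∉ n → p.s (l, 1) ⬝ᵥ p.κ (insert l n) = p.f (l, 0) ⬝ᵥ p.κ n
  r0 : ∀ n l, l ∉ n → p.s (l, 0) ⬝ᵥ p.κ (insert l n) = -(p.f (l, 1) ⬝ᵥ p.κ n)
  dv : ∀ n, γ.bv ∣ 2 ^ γ.c * (p.t ⬝ᵥ p.κ n)

/-- reciprocity up to the factor `η` -/
def Iso (η : R) : Prop := ∃ Z Z' : Matrix (Option (Fin p.r ⊕ σ × Fin 2)) p.I R,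
  η • ∑ j, (vecMulVec (p.f j) (p.s j) + vecMulVec (p.s j) (p.f j)) =
    (Matrix.of fun o : Option _ => o.elim p.t (p.Rm γ))ᵀ * Z +
      Z'ᵀ * Matrix.of fun o : Option _ => o.elim p.t (p.Rm γ)

/-- `q` has one more prime, whose Frobenius element is `g` -/
structure Ext (q : Pk R G σ) (g : G) where
  e : Option p.ι ≃ q.ι
  A : Matrix q.I p.I R
  ker : ∀ v, v ᵥ* A ∈ p.Rl γ ↔ v ∈ q.Rl γ ⊔ span R (range fun i => q.s (e none, i))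
  u : ∀ h i, q.u h i ᵥ* A - p.u h i ∈ p.Rl γ
  t : q.t ᵥ* A - p.t ∈ p.Rl γ
  m : ∀ x i, q.m x i ᵥ* A - p.m x i ∈ p.Rl γ
  f : ∀ l i, q.f (e (some l), i) ᵥ* A - p.f (l, i) ∈ p.Rl γ
  s : ∀ l i, q.s (e (some l), i) ᵥ* A - p.s (l, i) ∈ p.Rl γ
  new : ∀ i, q.f (e none, i) ᵥ* A - p.u g i ∈ p.Rl γ
  κ : ∀ n, q.κ (n.image fun l => e (some l)) = A *ᵥ p.κ n

end Pk

/-- `N` is surjective at the prime `π` -/
def Sj (π : La) (N : Matrix (Fin 2) (Fin 2 ⊕ Fin 2) La) : Prop :=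
  ∃ (N' : Matrix (Fin 2 ⊕ Fin 2) (Fin 2) La) (η : La), ¬ π ∣ η ∧ N * N' = η • 1

/-- the rows of the matrices `ρ g - 1`, `g ∈ D` -/
def Au {G : Type} [Group G] (ρ : G →* Matrix (Fin 2) (Fin 2) La) (D : Set G) :
    Submodule La (Fin 2 → La) := span La {v | ∃ g ∈ D, ∃ i, v = (ρ g - 1) i}

/-- **the patched system** -/
structure Sys where
  G : Type
  [gG : Group G]
  σ : Type
  [fσ : Fintype σ]
  [dσ : DecidableEq σ]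
  γ : Gl La G σ
  θ : G →* G
  θθ : ∀ g, θ (θ g) = g
  nH : γ.H.Normal
  ρH : ∀ h ∈ γ.H, γ.ρ h = 1
  θH : ∀ h ∈ γ.H, θ h ∈ γ.H
  sah : ∃ z, γ.ρ z = -1 ∧ ∀ g, z * g * z⁻¹ * g⁻¹ ∈ γ.H
  spn : ∀ B, (2 : La) ^ γ.c • B ∈ span La (range γ.ρ)
  nis : ∃ g i j, ¬ X ∣ (γ.ρ (θ g) - γ.ρ g) i j
  gen : ∃ g, ∃ a a' : La, γ.ρ g = a • 1 ∧ γ.ρ (θ g) = a' • 1 ∧
    ∀ π, Prime π → π ∣ a - a' → π ∣ 2 * X
  bv0 : constantCoeff γ.bv ≠ 0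
  av : ∃ A : Matrix (Fin 2) (Fin 2) La, (∀ i, A i ∈ Au γ.ρ γ.Dv) ∧ A.det ∣ 2 ^ γ.c * γ.bv
  ap : ∀ x, ∃ E : Matrix (Fin 2) (Fin 2) La, IsUnit E.det ∧ ∀ i, ((γ.N x)ᵀ * E) i ∈ Au γ.ρ (γ.D x)
  gs : Fin 3 → G
  is : Fin 3 → Fin 2
  gv : ∀ k, gs k ∈ γ.Dv
  β : La
  βe : β = det (Matrix.of fun k => Fin.snoc (α := fun _ => La) ((γ.ρ (gs k) - 1) (is k))
    (γ.e (gs k) (is k)))
  β0 : β ≠ 0
  sep : ∀ π, Prime π → ¬ π ∣ 2 → (∀ x, Sj π (γ.N x)) ∨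
    (¬ π ∣ X ∧ ¬ π ∣ β ∧ ∃ x, (∃ i j, ¬ π ∣ γ.N x i j) ∧ ∀ y, y ≠ x → Sj π (γ.N y))
  𝒮 : Set (Pk La G σ)
  ok : ∀ p ∈ 𝒮, p.Ok γ
  iso : ∀ π, Prime π → ¬ π ∣ 2 → ∃ η, ¬ π ∣ η ∧ ∀ p ∈ 𝒮, p.Iso γ η
  ext : ∀ p ∈ 𝒮, ∀ h ∈ γ.H, ∃ q ∈ 𝒮, Nonempty (p.Ext γ q (θ h * h))
  o : Pk La G σ
  mem : o ∈ 𝒮
  emp : IsEmpty o.ι
  l : ℕ
  mu : map PadicInt.toZMod (o.Mx γ).det ≠ 0
  la : X ^ (2 * l) ∣ map PadicInt.toZMod (o.Mx γ).det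
  an : ¬ X ^ (l + 1) ∣ map PadicInt.toZMod (o.t ⬝ᵥ o.κ ∅)

attribute [instance] Sys.gG Sys.fσ Sys.dσ

/-- the value at `T = 0` -/
def Sys.Θ0 (S : Sys) : ℤ_[2] := constantCoeff (S.o.t ⬝ᵥ S.o.κ ∅)

/-- the Selmer group at `T = 0` has rank at most one -/
def Sys.Rk1 (S : Sys) : Prop := ∀ y y' : S.o.I → ℤ_[2],
  (S.o.Mx S.γ).map constantCoeff *ᵥ y = 0 → (S.o.Mx S.γ).map constantCoeff *ᵥ y' = 0 →
  ∃ a b : ℤ_[2], ¬ (a = 0 ∧ b = 0) ∧ a • y + b • y' = 0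

/-- **the Kolyvagin argument** -/
def KG : Prop := ∀ S : Sys, S.Rk1 → S.Θ0 ≠ 0

end Vale.Agent.P004F
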