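import Vale.Agent.P004F.Defs
import Vale.Agent.P004F.Sys
import Vale.Agent.P004F.Rec.St
import Vale.Agent.P004F.En.Cv

/-! # P004F (FRAME): the rows -/

set_option linter.all false

open UpperHalfPlane NumberField Matrix Filter PowerSeries
open scoped Classical NumberTheorySymbols Pointwise

noncomputable section

namespace Vale.Agent.P004F

open Vale.Agent.P022 Vale.Agent.P004K
open Vale.Agent.P022K.G2 (In)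
open Vale.Agent.P027M.S (Inert)
open Vale.Agent.P022D.W (dec)
open Vale.Agent.P022E.GW (Ov Fb Gn)
open P004M.TE (Pt ga)
open P004S (nu Rep)
open P004T (ds PosD TwoK)
open Pr (ac Gd Lo Zs)
open Qx (zf Fk Ur)

/-- the class in `Rj j` -/
abbrev mj (j : ℕ) : La →+* Rj j := Ideal.Quotient.mk _

/-- the tame relation -/
def Nt {R : Type} [CommRing R] (A U : M2 R) (q : ℕ) : Matrix (Fin 2) (Fin 2 ⊕ Fin 2) R :=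
  fromCols (1 - U ^ q) (A - ∑ i ∈ Finset.range q, U ^ i)

namespace Fld

variable {e : Crv} (b : Fld e)

/-- a ring class character with values in `Rj j` -/
structure Chr (j c : ℕ) (Ψ : GQ → Rj j) : Prop where
  sq : Squarefree c
  cop : ∀ q ∈ c.primeFactors, q ∉ e.S ∧ ¬ q ∣ b.δ'
  mul : ∀ g ∈ b.Γ, ∀ h ∈ b.Γ, Ψ (g * h) = Ψ g * Ψ h
  ker : ∀ g ∈ Hc b.j c, Ψ g = 1
  ord : ∀ g ∈ b.Γ, Ψ g ^ 2 ^ (2 * j) = 1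

/-- the action -/
def aa (_ : Fld e) (j : ℕ) (Ψ : GQ → Rj j) (g : GQ) : M2 (Rj j) := Ψ g • (e.rd g).map (cj j)

/-- Kolyvagin primes -/
structure Kp (j c : ℕ) (Ψ : GQ → Rj j) where
  l : ℕ
  P : Ideal (𝓞 Qb)
  φ : GQ
  τ : GQ
  kp : Rc.Kp (j + 1) b.Γ l P φ τ
  out : l ∉ b.T c
  cop : ¬ l ∣ b.M * b.δ'
  tr : ∀ i i', (2 : ℤ_[2]) ^ (j + 1) ∣ (e.r (b.c * φ) - 1) i i'
  nu0 : nu (ds e.δ) (b.c * φ) = 0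
  psi : Ψ (b.c * φ) = 1
  gen : ∀ c', 0 < c' → ¬ l ∣ c' → Gen b.j c' l (l + 1) τ

/-- distinct primes -/
def Inj {j c : ℕ} {Ψ : GQ → Rj j} (n : Finset (b.Kp j c Ψ)) : Prop :=
  ∀ k ∈ n, ∀ k' ∈ n, k.l = k'.l → k = k'

/-- **framed Selmer cocycles**: a multiple of `ε` at `P 2`, a coboundary at `P p`, `p ∈ σ` -/
structure Sel {R M : Type} [CommRing R] [AddCommGroup M] [Module R M] (T : Finset ℕ)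
    (a : GQ → M2 R) (ε : GQ → Fin 2 → R) (x : GQ → Fin 2 → M) (t : M) (m : e.σ → Fin 2 → M) : Prop
    extends Cc b.Γ T a x where
  sv : ∀ g ∈ dec (e.P 2), ∀ i, x g i = ε g i • t
  sp : ∀ p : e.σ, ∀ g ∈ dec (e.P p), x g = ac (a g - 1) (m p)

/-- the strict module modulo two -/
def Z1 (J c : ℕ) (χ : GQ → ℕ) : Set ((GQ → Fin 2 → Rb J) × (e.σ → Fin 2 → Rb J)) :=
  {x | b.Sel (b.T c) (b.ab J χ) 0 x.1 (0 : Rb J) x.2}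

/-- the extra prime is split, residually trivial, and `χ` of its Frobenius has valuation `v` -/
structure Xq (c : ℕ) (χ : GQ → ℕ) (q v : ℕ) : Prop where
  pr : q.Prime
  out : q ∉ b.T c
  cop : ¬ q ∣ b.δ'
  spl : ∀ P, Ov q P → dec P ≤ b.Γ
  res : ∀ P, Ov q P → ∀ g ∈ dec P, (e.r g).map PadicInt.toZMod = 1
  val : ∀ P, Ov q P → ∀ g, Fb q P g → 2 ^ v ∣ χ g ∧ ¬ 2 ^ (v + 1) ∣ χ g

/-- the perturbation -/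
structure Pe (m k : ℕ) (y : ℕ → ℕ) (n c : ℕ) (χ : GQ → ℕ) (q : ℕ) (χ' : GQ → ℕ) : Prop
    extends b.Ad n q χ' where
  xq : ∃ v < m, b.Xq c χ q v
  gp : b.Gp m n q
  ram : ∀ P, Ov q P → ∃ g, Inert P g ∧ ¬ 2 ^ m ∣ χ' g
  odd : ∀ p ∈ e.S, p ≠ 2 → χ' (b.φ p) ≡ k * y p [MOD 2 ^ n]
  two : 2 ^ n ∣ χ' (b.φ 2)
  tw : ∀ l ∈ c.primeFactors, ∀ P, Ov l P → ∀ g ∈ b.Γ ⊓ dec P, 2 ^ n ∣ χ' g

/-- the output of the Euler system for one character -/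
structure Es (c₀ j c : ℕ) (Ψ : GQ → Rj j) (ε : GQ → Fin 2 → Rj j)
    (κ : Finset (b.Kp j c Ψ) → GQ → Fin 2 → Rj j) (t : Finset (b.Kp j c Ψ) → Rj j)
    (m : Finset (b.Kp j c Ψ) → e.σ → Fin 2 → Rj j) : Prop where
  coc : ∀ g ∈ dec (e.P 2), ∀ h ∈ dec (e.P 2), ε (g * h) = ε g + b.aa j Ψ g *ᵥ ε h
  lc : ∃ W : Subgroup GQ, IsOpen (W : Set GQ) ∧ ∀ w ∈ W, w ∈ dec (e.P 2) → ε w = 0
  free : (∀ g ∈ b.Γ, Ψ g - 1 ∈ Ideal.span {mj j X}) → ∀ k ≤ j, ∀ (s : ℤ_[2]) (v : Fin 2 → ℤ_[2]),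
    (∀ g ∈ dec (e.P 2), ∀ i, cj j s * ε g i - cj j (((e.rd g - 1) *ᵥ v) i) ∈
      Ideal.span {(2 : Rj j) ^ k, mj j X}) → 2 ^ k ∣ 2 ^ c₀ * s
  sel : ∀ n, b.Inj n → b.Sel (b.T c ∪ n.image (·.l)) (b.aa j Ψ) ε (κ n) (t n) (m n)
  kf : ∀ n, b.Inj n → ∀ k ∈ n, κ n (k.φ ^ 2) = 0
  rel : ∀ n k, k ∉ n → b.Inj (insert k n) →
    (e.r b.c).map (cj j) *ᵥ κ (insert k n) k.τ = κ n (k.φ ^ 2)
  dv : (∃ v, e.Iv 2 v) → ∀ n, b.Inj n → ∀ ψ, ψ = sd (ds e.δ) (b.φ 2) * Ψ (b.φ 2) →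
    2 * ψ ^ 2 - e.a 2 * ψ + (if 2 ∣ e.N then 0 else 1) ∣ 2 ^ c₀ * t n
  an : ∀ χ : GQ → ℕ, (∀ g ∈ b.Γ, Ψ g - mj j (1 + X) ^ χ g ∈ Ideal.span {(2 : Rj j)}) → ∀ l < j,
    b.An e.S' (e.δ * c) χ l → t ∅ ∉ Ideal.span {2, mj j X ^ (l + 1)}
  tor : (∀ g ∈ b.Γ, Ψ g - 1 ∈ Ideal.span {mj j X}) → b.Tor → t ∅ ∈ Ideal.span {mj j X}

end Fld

/-! ### the data exist -/

def CRV : Prop := ∀ N G a, P004N.RN N G a → ∃ (A B : ℤ) (h : 4 * A ^ 3 + 27 * B ^ 2 ≠ 0),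
  ∀ S₀ : Finset ℕ, (∀ l ∈ S₀, l.Prime) → ∃ (S : Finset ℕ) (P : Ideal (𝓞 Qb)),
  Rep (P004M.TE.rep (hq h)) S ∧ Ov 2 P ∧ ∀ δ, P004Z.Ok N δ → En.Urd a δ → ∃ e : Crv,
    e.N = N ∧ e.a = a ∧ e.A = A ∧ e.B = B ∧ e.δ = δ ∧ e.P 2 = P ∧ ∀ l ∈ S₀ ∪ S, l ∈ e.S

def FLD : Prop := ∀ e : Crv, ∃ T, ∀ δ', T ≤ δ' → e.Adm δ' → ∃ b : Fld e, b.δ' = δ'

/-! ### local rows -/

/-- `PRES` without the minimality of `N` -/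
def PRESN : Prop := ∀ (R : Type) [CommRing R] [IsLocalRing R] [Finite R] (π : R →+* ZMod 2)
  (μ ν κ : Type) [Fintype μ] [Fintype ν] [Fintype κ]
  (Γ : Subgroup GQ) (T : Finset ℕ) (a : GQ → M2 R) (P : κ → Ideal (𝓞 Qb))
  (b : κ → GQ → Matrix (Fin 2) μ R) (N : Matrix ν μ R), Gd Γ T a →
  (∀ i, ∃ l ∈ T, Ov l (P i)) → (∀ i j, ∀ g ∈ Γ, P j = g • P i → i = j) →
  (∃ i, Ov 2 (P i) ∧ dec (P i) ≤ Γ ∧ ∀ j, Ov 2 (P j) → j = i) →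
  (∀ i, ∀ g ∈ Γ ⊓ dec (P i), ∀ h ∈ Γ ⊓ dec (P i), ∃ β : Matrix (Fin 2) ν R,
    b i (g * h) = b i g + a g * b i h + β * N) →
  (∀ i, ∃ W : Subgroup GQ, IsOpen (W : Set GQ) ∧ ∀ g ∈ Γ ⊓ dec (P i),
    ∀ w ∈ Γ ⊓ dec (P i), w ∈ W → b i (g * w) = b i g) →
  (∃ l ∈ T, l ≠ 2 ∧ ∃ Q, Ov l Q ∧ dec Q ≤ Γ ∧ (∀ g ∈ dec Q, (a g).map π = 1) ∧
    ∀ i, ∀ g ∈ Γ, Q ≠ g • P i) →
  ∃ (g r : ℕ) (Q : Matrix (Fin r) (Fin g) R) (u : GQ → Matrix (Fin 2) (Fin g) R)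
    (w : Matrix μ (Fin g) R),
    (∀ (M : Type) [AddCommGroup M] [Module R M],
      Set.BijOn (fun y : Fin g → M => (fun γ => ac (u γ) y, ac w y))
        {y | ac Q y = 0 ∧ ac (N * w) y = 0} {x | x ∈ Zs M Γ T a P b ∧ ac N x.2 = 0}) ∧
    2 ^ g ≤ Nat.card (Zs (ZMod 2) Γ T (fun γ => (a γ).map π) P fun i γ => (b i γ).map π) *
      2 ^ Fintype.card ν ∧
    r + Fintype.card μ + 2 = g + Fintype.card κ * 2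

/-- **the tame local presentation** at a place of residue degree `f` -/
def LOCT : Prop := ∀ (R : Type) [CommRing R] [Finite R] (k : ℕ), (2 : R) ^ k = 0 →
  ∀ (Γ : Subgroup GQ) (l f : ℕ) (P : Ideal (𝓞 Qb)) (φ τ : GQ) (a : GQ → M2 R),
  Ov l P → l ≠ 2 → 0 < f → Fb l P φ → Gn l P τ → (∀ g, Inert P g → g ∈ Γ) →
  (∀ i : ℕ, φ ^ i ∈ Γ ↔ f ∣ i) → IsOpen (Γ : Set GQ) → a 1 = 1 →
  (∀ g ∈ Γ ⊓ dec P, ∀ h ∈ Γ ⊓ dec P, a (g * h) = a g * a h) →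
  (∃ W : Subgroup GQ, IsOpen (W : Set GQ) ∧ ∀ w ∈ Γ ⊓ dec P, w ∈ W → a w = 1) →
  (∀ g, Inert P g → ∃ n : ℕ, a g ^ 2 ^ n = 1) →
  ∃ b : GQ → Matrix (Fin 2) (Fin 2 ⊕ Fin 2) R,
    (∀ g ∈ Γ ⊓ dec P, ∀ h ∈ Γ ⊓ dec P, ∃ β : M2 R,
      b (g * h) = b g + a g * b h + β * Nt (a (φ ^ f)) (a τ) (l ^ f)) ∧
    (∃ W : Subgroup GQ, IsOpen (W : Set GQ) ∧ ∀ g ∈ Γ ⊓ dec P, ∀ w ∈ Γ ⊓ dec P, w ∈ W →
      b (g * w) = b g) ∧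
    b (φ ^ f) = fromCols 1 0 ∧ b τ = fromCols 0 1 ∧
    ∀ (M : Type) [AddCommGroup M] [Module R M] (x : GQ → Fin 2 → M),
      (∀ g ∈ Γ ⊓ dec P, ∀ h ∈ Γ ⊓ dec P, x (g * h) = x g + ac (a g) (x h)) →
      (∃ W : Subgroup GQ, IsOpen (W : Set GQ) ∧ ∀ w ∈ Γ ⊓ dec P, w ∈ W → x w = 0) →
      ac (Nt (a (φ ^ f)) (a τ) (l ^ f)) (Sum.elim (x (φ ^ f)) (x τ)) = 0 ∧
      ∀ g ∈ Γ ⊓ dec P, x g = ac (b g) (Sum.elim (x (φ ^ f)) (x τ))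

/-- no invariants of inertia: the local cohomology has bounded exponent -/
def VAN : Prop := ∀ (e : Crv) (b : Fld e), ∃ c₀ : ℕ, ∀ p ∈ e.S, p ≠ 2 → p ∉ e.σ →
  ∀ j c Ψ, b.Chr j c Ψ → ∀ (M : Type) [AddCommGroup M] [Module (Rj j) M] (T : Finset ℕ)
    (x : GQ → Fin 2 → M), Cc b.Γ T (b.aa j Ψ) x → ∀ P, Ov p P →
    ∃ m, ∀ g ∈ dec P, 2 ^ c₀ • x g = ac (b.aa j Ψ g - 1) m

/-- inertia is unipotent at the primes of `σ` -/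
def UNI : Prop := ∀ (e : Crv), ∀ p ∈ e.σ, ∀ g, Inert (e.P p) g → (e.r g - 1) ^ 2 = 0 ∧
  (e.r (e.τ p) = 1 → e.r g = 1)

/-- an unramified Frobenius element is not scalar -/
def NSC : Prop := ∀ (e : Crv) p P φ, Ov p P → p ≠ 2 → Fb p P φ → (∀ g, Inert P g → e.r g = 1) →
  ∀ s : ℤ_[2], e.r φ ≠ s • 1

/-- the image of `Γ` spans the matrices -/
def ABS : Prop := ∀ (e : Crv) (b : Fld e), ∃ c₀ : ℕ, ∀ B : M2 ℤ_[2],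
  (2 : ℤ_[2]) ^ c₀ • B ∈ Submodule.span ℤ_[2] (e.r '' b.Γ)

/-- Kolyvagin primes exist -/
def KPX : Prop := ∀ (e : Crv) (b : Fld e) j c Ψ, b.Chr j c Ψ → ∀ h ∈ b.Γ,
  (∀ i i', (2 : ℤ_[2]) ^ (j + 1) ∣ (e.r h - 1) i i') → nu (ds e.δ) h = 0 → Ψ h = 1 →
  ∀ W : Subgroup GQ, IsOpen (W : Set GQ) → ∀ T : Finset ℕ,
  ∃ k : b.Kp j c Ψ, k.l ∉ T ∧ (b.c * h * (b.c * h))⁻¹ * k.φ ^ 2 ∈ W

/-! ### the place above two -/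

/-- finite index of the formal group -/
def IDX : Prop := ∀ (A B : ℤ), 4 * A ^ 3 + 27 * B ^ 2 ≠ 0 → ∀ P φ, Ov 2 P → Fb 2 P φ →
  ∀ κ f : ℕ, κ ≠ 0 → f ≠ 0 → ∃ n : ℕ, n ≠ 0 ∧
    ∀ y : Pt A B, Ur P y → ga (φ ^ f) y = y → Fk P κ (n • y)

/-- the split ordinary case -/
def SPL : Prop := ∀ e : Crv, (∃ v, e.Iv 2 v) → ∀ κ : ℕ, κ ≠ 0 → ∃ c₀ : ℕ, ∀ y : Pt e.A e.B,
  Ur (e.P 2) y → ∃ (n k : ℕ) (w : Pt e.A e.B), Odd n ∧ 2 ^ k • w = 0 ∧ Ur (e.P 2) w ∧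
    Fk (e.P 2) κ ((2 ^ c₀ * n) • y - w)

/-- the Frobenius eigenvalue in the split ordinary case -/
def LGC : Prop := ∀ (e : Crv) v φ (α : ℤ_[2]), e.Iv 2 v → Fb 2 (e.P 2) φ → e.r φ *ᵥ v = α • v →
  2 - e.a 2 * α + (if 2 ∣ e.N then 0 else α ^ 2) = 0

/-! ### global rows -/

/-- **the Kolyvagin classes** -/
def ES : Prop := ∀ (e : Crv) (b : Fld e), ∃ c₀ : ℕ, ∀ j, 0 < j →
  ∃ ε : Rj j → GQ → Fin 2 → Rj j, ∀ c Ψ, b.Chr j c Ψ →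
    ∃ κ t m, b.Es c₀ j c Ψ (ε (Ψ (b.φ 2))) κ t m

/-- the extra prime exists -/
def PE : Prop := ∀ (e : Crv) (b : Fld e) (m : ℕ), ∃ k m' : ℕ, k ≠ 0 ∧ ∀ y n c χ, m' ≤ n →
  b.Tw m n c χ → ∃ q χ', b.Pe m' k y n c χ q χ'

/-- the analytic side after the change of conductor -/
def DPL : Prop := ∀ (e : Crv) (b : Fld e) m n c χ q v l, b.Tw m n c χ → b.Xq c χ q v →
  l + 2 * 2 ^ v < 2 ^ n → b.An e.S c χ l → b.An e.S' (e.δ * (c * q)) χ (l + 2 * 2 ^ v)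

/-- the algebraic side after the change of the local conditions -/
def CNT : Prop := ∀ (e : Crv) (b : Fld e) m n c χ q v B J J₀, b.Tw m n c χ → b.Xq c χ q v →
  J ≤ 2 ^ n → J₀ ≤ J → B + 4 * 2 ^ v < J → Nat.card (b.Z0 J c χ) ≤ 2 ^ B →
  Nat.card (b.Z0 J₀ c χ) * 2 ^ (4 * 2 ^ v) ≤ Nat.card (b.Z1 J (c * q) χ) ∧
    Nat.card (b.Z1 J (c * q) χ) ≤ 2 ^ (B + 4 * 2 ^ v)

/-- control at `T = 0` -/
def END : Prop := ∀ (e : Crv) (b : Fld e) (m : ℕ), ¬ TwoK e.rp (e.P 2) (ds e.δ) (-b.δ') →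
  ∃ c₀ : ℕ, ∀ (k c : ℕ), (∀ q ∈ c.primeFactors, b.Gp m k q) →
  ∀ x x' : GQ → Fin 2 → ZMod (2 ^ k),
    Cc b.Γ (b.T c) (fun g => (e.rd g).map (PadicInt.toZModPow k)) x →
    Cc b.Γ (b.T c) (fun g => (e.rd g).map (PadicInt.toZModPow k)) x' →
    (∀ g ∈ dec (e.P 2), x g = 0 ∧ x' g = 0) →
    ∃ α β : ℤ, ¬ (2 ∣ α ∧ 2 ∣ β) ∧ 2 ^ c₀ • (α • x + β • x') = 0

/-- **patching** -/
def PAT : Prop := ∀ (e : Crv) (b : Fld e), b.Anc → ∃ S : Sys,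
  (¬ TwoK e.rp (e.P 2) (ds e.δ) (-b.δ') → S.Rk1) ∧ (b.Tor → S.Θ0 = 0)

end Vale.Agent.P004F
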