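import Vale.Agent.P004F.All0
import Vale.Agent.P004F.Es.Es

/-! # P004F (FRAME): closed terms -/

namespace Vale.Agent.P004F

open Vale.Agent.P004K

theorem z_es : ES :=
  Es.es Qx.fg Qx.fr Ix.idx z_spl x_rc1 z_gns z_tyq Es.red Es.coo z_tow Es.lam

/-- **the frame**: an anchor gives the converse theorem -/
theorem conv3 {C : (ℕ → ℤ) → Prop} : ANCHOR C → En.CONVK3 C := conv0 z_es

end Vale.Agent.P004F
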