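import Vale.Agent.P004F.St
import Vale.Agent.P004T.Adm
import Vale.Agent.P004F.En.Rep

/-! # P004F (FRAME): the glue -/

set_option linter.all false

open NumberField Filter
open scoped Classical NumberTheorySymbols

noncomputable section

namespace Vale.Agent.P004F

open Vale.Agent.P022 Vale.Agent.P004K
open P004T (ds PosD TwoK NT Sp)

theorem posd_tail {E : Set ℕ} (h : PosD E) (T : ℕ) : PosD {n | n ∈ E ∧ T ≤ n} := by
  obtain ⟨c, c0, h⟩ := h
  refine ⟨c / 2, half_pos c0, (h.and_eventually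
    ((tendsto_natCast_atTop_atTop (R := ℝ)).eventually_ge_atTop (2 * T / c))).mono fun X a => ?_⟩
  have k : ((Finset.range X).filter (· ∈ E)).card ≤
      ((Finset.range X).filter (· ∈ {n | n ∈ E ∧ T ≤ n})).card + T := by
    refine le_trans (Finset.card_le_card fun n hn => ?_)
      ((Finset.card_union_le ((Finset.range X).filter (· ∈ {n | n ∈ E ∧ T ≤ n})) 
        (Finset.range T)).trans_eq (by rw [Finset.card_range T]))
    simp only [Finset.mem_filter, Finset.mem_union, Finset.mem_range, Set.mem_setOf_eq] at hn ⊢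
    rcases Nat.lt_or_ge n T with k | k
    exacts [.inr k, .inl ⟨hn.1, hn.2, k⟩]
  have k1 : (((Finset.range X).filter (· ∈ E)).card : ℝ) ≤
      (((Finset.range X).filter (· ∈ {n | n ∈ E ∧ T ≤ n})).card : ℝ) + T := by exact_mod_cast k
  have k2 := (div_le_iff₀ c0).1 a.2
  have k3 := a.1.trans (by convert k1)
  convert (by linarith : c / 2 * X ≤
    (((Finset.range X).filter (· ∈ {n | n ∈ E ∧ T ≤ n})).card : ℝ))

theorem sd_sqrt (d : ℤ) (g : GQ) (u : Qb) (h : u ^ 2 = d) : g u = sd d g * u := by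
  rw [P004S.gal_sqrt h g, sd]
  split_ifs <;> simp

/-- **the frame** -/
theorem frame {C : (ℕ → ℤ) → Prop} (h1 : CRV) (h2 : FLD) (h3 : BDL) (h4 : PAT) (h5 : KG)
    (hA : ANCHOR C) : En.CONVK3 C := by
  intro N G a L hG hL ha
  obtain ⟨A, B, hD, h⟩ := h1 N G a hG
  obtain ⟨S₀, s0, hA⟩ := hA A B
  obtain ⟨S, P, hr, hP, h⟩ := h S₀ s0
  refine ⟨_, S, P, hr, hP, En.noi _, fun δ hδ hu => ?_⟩
  obtain ⟨e, rfl, rfl, rfl, rfl, rfl, rfl, hS⟩ := h δ hδ hu
  obtain ⟨E, hE, k⟩ := hA e rfl rfl (fun l hl => hS l (Finset.mem_union_left _ hl)) ha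
  obtain ⟨T, hT⟩ := h2 e
  refine ⟨_, posd_tail hE (max T 5), fun δ' hd => ?_⟩
  obtain ⟨ad, k⟩ := k δ' hd.1
  have h5' : 5 ≤ δ' := le_of_max_le_right hd.2
  have m8 : -(δ' : ℤ) % 8 = 1 := by have := ad.m8; omega
  refine ⟨⟨by omega, ?_, m8, fun g hg => P004T.nu_two hP m8 hg, fun l hl l2 hs => ad.spl l ?_ l2⟩,
    fun n2 => ?_⟩
  · exact (Associated.squarefree_iff (Associated.refl _).neg_left).2 (Int.squarefree_natCast.2 ad.sq)
  · rcases hs with hs | hs
    · exact hS l (Finset.mem_union_right _ hs)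
    · by_contra c
      refine (e.bad l hl c).1 (Dvd.dvd.mul_left (Int.natCast_dvd_natCast.1 ?_) _)
      unfold ds at hs
      rcases P004T.eps_or hδ with k | k <;> rw [k] at hs <;> simpa using hs
  · obtain ⟨b, rfl⟩ := hT δ' (le_of_max_le_left hd.2) ad
    obtain ⟨s, a1, a2⟩ := h4 e b (k b rfl)
    have : NeZero e.N := ⟨e.rn.pos.ne'⟩
    have o := e.ok
    refine ⟨b.β, b.dat, fun t => h5 s (a1 n2) (a2 fun T hT => ?_)⟩
    exact h3 b.K b.j b.iq e.N e.δ b.δ' b.β b.θ b.η b.I b.dat b.th b.im b.ch.lev.cn b.mem b.eta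
      e.a e.A e.B e.w e.Λ e.F e.x e.y L e.par hL t _
      (b.hg e.δ (zero_lt_one.trans o.one) o.cop.symm) _ T
      (fun g u hu => sd_sqrt _ g u (by rw [hu, ds]; push_cast; rfl)) hT.1 hT.2

end Vale.Agent.P004F
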