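import Vale.Agent.P004K.All
import Vale.Agent.P004F.Top
import Vale.Agent.P004F.Qx.Exp
import Vale.Agent.P004F.Qx.Dep
import Vale.Agent.P004F.Qx.Vex
import Vale.Agent.P004F.Qx.Fg
import Vale.Agent.P004F.Qx.Fr
import Vale.Agent.P004F.Cr.Crv
import Vale.Agent.P004F.Fd.Fld
import Vale.Agent.P004F.Pn.Pn
import Vale.Agent.P004F.Rec.All
import Vale.Agent.P004F.Dp.Dpl
import Vale.Agent.P004F.Lt.Loct
import Vale.Agent.P004F.Pt.Pe
import Vale.Agent.P004F.Ch.Kpx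
import Vale.Agent.P004F.En.Row
import Vale.Agent.P004F.Es.Tyq
import Vale.Agent.P004F.Cn.Two
import Vale.Agent.P004F.Es.Gns
import Vale.Agent.P004F.Es.Coo
import Vale.Agent.P004F.Es.Tow
import Vale.Agent.P004F.Es.Red
import Vale.Agent.P004F.Sp.Agm
import Vale.Agent.P004F.Ix.Idx
import Vale.Agent.P004F.Kg.Kg
import Vale.Agent.P004F.Pa.Sep
import Vale.Agent.P004F.Pa.Glb
import Vale.Agent.P004F.Pa.Lev
import Vale.Agent.P004F.Pa.Sqx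
import Vale.Agent.P004F.Pa.Twv
import Vale.Agent.P004F.Ed.End
import Vale.Agent.P004F.Va.Van
import Vale.Agent.P004F.Sp.Cmt
import Vale.Agent.P004F.Sp.The
import Vale.Agent.P004F.Pa.Isl
import Vale.Agent.P004F.Pa.Exl
import Vale.Agent.P004F.Pa.Pk1
import Vale.Agent.P004F.Pa.Eta
import Vale.Agent.P004F.Pa.Num
import Vale.Agent.P004F.Pa.Lis
import Vale.Agent.P004F.Pa.Lex
import Vale.Agent.P004F.Pa.Lok
import Vale.Agent.P004F.Pa.Rk1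

/-! # P004F (FRAME): the wiring -/

namespace Vale.Agent.P004F

open Vale.Agent.P004K

theorem z_qexp : Qx.QEXP := Qx.qexp Qx.vex y_hg1 (Qx.dep_row y_hg1 x_rc2)

theorem z_fld : FLD := fld y_heeg z_qexp

theorem z_kpx : KPX := Ch.kpx x_rc1 x_rc2 x_rc3

theorem z_pe : PE := Pt.pe x_rc1 x_rc2 x_rc3

theorem z_dpl : DPL := dpl x_rc1 x_rc2 x_rc3 Qx.fg

theorem z_isl : Pa.ISL := Pa.isl Rc.rec' x_rc1 x_rc2

theorem z_cnt : CNT := Cn.cnt Pn.presn Lt.loct En.uni_row x_rc1 x_rc2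

theorem z_lev : Pa.LEV := Pa.lev Pn.presn Lt.loct Pr.bnd En.uni_row x_rc1 x_rc2

theorem z_spl : SPL := Sp.spl Ix.idx

theorem z_gns : Es.GNS := Es.gns x_rc1 x_rc2

theorem z_tyq : Es.TYQ := Es.tyq x_rc1 x_rc2

theorem z_tow : Es.TOW := Es.tow z_gns z_tyq x_rc1 x_rc2 x_rc3

theorem z_lgc : LGC := Sp.lgc (Sp.cmt x_mt) Sp.the

theorem z_pat (h : ES) : PAT :=
  Pa.pat (Pa.sqx x_rc1 x_rc2 h z_pe z_dpl z_cnt (Pa.sep_row x_rc1 x_rc2 En.uni_row En.nsc_row))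
    (Pa.glb x_rc1 x_rc2 Ch.abs z_lgc) (Pa.lmx z_lev) (Pa.lok Pa.pk1)
    (Pa.lis z_isl (Pa.eta x_rc2 (van x_rc2) Pa.twv))
    (Pa.lex Pa.pk1 z_kpx (Pa.lmx z_lev) (Pa.exl x_rc1 x_rc2)) Pa.num (Pa.rk1 (end_row Pr.bnd))

/-- the frame, given the Euler system -/
theorem conv0 (h : ES) {C : (ℕ → ℤ) → Prop} : ANCHOR C → En.CONVK3 C :=
  frame crv z_fld y_bdl (z_pat h) kg

end Vale.Agent.P004F
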